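import Mathlib
import Vale.Agent.Lib.P328.RP.HGap

/-!
P328: the Knabe local-to-global step for a partition of the rows into sites (a site is a set
of rows that is treated as one unit).

* `hgap_sites` : if the row sets `rows a` of the sites are pairwise disjoint, every pair of rows
  lies in the rows of some pair of sites, and every triple of sites satisfies the triple
  inequality, then the variance of `f` is at most the sum over the pairs of sites of the
  Dirichlet forms of the resamplings of the rows of the pair.
-/

namespace Vale.Agent.Lib.P328.RP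

open Finset
open Vale.Agent.Lib.P335.Bip

theorem biUnion_disjoint_of_disjoint {m : ℕ} {ι : Type*} (rows : ι → Finset (Fin m))
    (hdisj : ∀ a b, a ≠ b → Disjoint (rows a) (rows b)) {p q : Finset ι} (hpq : Disjoint p q) :
    Disjoint (p.biUnion rows) (q.biUnion rows) := by
  rw [Finset.disjoint_biUnion_left]
  intro a ha
  rw [Finset.disjoint_biUnion_right]
  intro b hb
  exact hdisj a b (fun hab => Finset.disjoint_left.mp hpq ha (hab ▸ hb))

section sites

variable {m n : ℕ} {r : Fin m → ℕ} {c : Fin n → ℕ}
variable {ι : Type*} [Fintype ι] [DecidableEq ι]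

/-- **Knabe step for sites.**  The rows are grouped into sites with pairwise disjoint row sets
`rows a`.  If every triple `T` of sites satisfies
`1 - R (rows T) ≤ ∑_{p ⊆ T, |p| = 2} (1 - R (rows p))` as quadratic forms, then
`1 - R univ ≤ ∑_{pairs p of sites} (1 - R (rows p))`. -/
theorem hgap_sites (rows : ι → Finset (Fin m))
    (hdisj : ∀ a b, a ≠ b → Disjoint (rows a) (rows b))
    (hpair : ∀ p : Finset (Fin m), p.card = 2 →
      ∃ P : Finset ι, P.card = 2 ∧ p ⊆ P.biUnion rows)
    (htriple : ∀ T : Finset ι, T.card = 3 → ∀ f : CT m n r c → ℝ,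
      ip f f - ip f (R (T.biUnion rows) f)
        ≤ ∑ p ∈ T.powersetCard 2, ip f (PR (p.biUnion rows) f))
    (f : CT m n r c → ℝ) :
    ip f f - ip f (R univ f)
      ≤ ∑ p ∈ (univ : Finset ι).powersetCard 2, (ip f f - ip f (R (p.biUnion rows) f)) := by
  classical
  set H : (CT m n r c → ℝ) →ₗ[ℝ] (CT m n r c → ℝ) :=
    ∑ p ∈ (univ : Finset ι).powersetCard 2, PR (p.biUnion rows) with hH
  have hHapp : ∀ g, H g = ∑ p ∈ (univ : Finset ι).powersetCard 2, PR (p.biUnion rows) g := by
    intro g
    rw [hH, LinearMap.sum_apply]
  have hform : ∀ g, ip g (H g)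
      = ∑ p ∈ (univ : Finset ι).powersetCard 2, (ip g g - ip g (R (p.biUnion rows) g)) := by
    intro g
    rw [hHapp, ip_sum_right]
    exact Finset.sum_congr rfl (fun p _ => ip_PR _ g)
  have hsq : ∀ g, ip g (H g) ≤ ip (H g) (H g) := by
    intro g
    rw [hHapp]
    refine knabe (fun p : Finset ι => PR (p.biUnion rows)) (fun T : Finset ι => R (T.biUnion rows))
      (fun p _ => PR_symm _) (fun p _ => PR_idem _)
      (fun p q _ _ hd => PR_comm _ _ (biUnion_disjoint_of_disjoint rows hdisj hd))
      (fun T _ => R_symm _) (fun T _ => R_idem _) ?_ ?_ g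
    · intro T _ p hp g'
      exact PR_R_of_subset (Finset.biUnion_subset_biUnion_of_subset_left rows
        (Finset.mem_powersetCard.mp hp).1) g'
    · intro T hT g'
      exact htriple T hT g'
  have hker : ∀ g, H g = 0 → R univ g = g := by
    intro g hg
    have h0 : ip g (H g) = 0 := by rw [hg, ip_zero_right]
    rw [hform] at h0
    have hterm : ∀ p ∈ (univ : Finset ι).powersetCard 2,
        ip g g - ip g (R (p.biUnion rows) g) = 0 := by
      have hnn : ∀ p ∈ (univ : Finset ι).powersetCard 2,
          0 ≤ ip g g - ip g (R (p.biUnion rows) g) :=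
        fun p _ => sub_nonneg.mpr (ip_cexp_le _ g)
      exact (Finset.sum_eq_zero_iff_of_nonneg hnn).mp h0
    have hfixS : ∀ P : Finset ι, P.card = 2 → R (P.biUnion rows) g = g := by
      intro P hP
      have h1 := hterm P (Finset.mem_powersetCard.mpr ⟨Finset.subset_univ _, hP⟩)
      have h2 : ip (g - R (P.biUnion rows) g) (g - R (P.biUnion rows) g) = 0 := by
        rw [← h1]
        exact ip_sub_cexp _ g
      have h3' := ip_self_eq_zero.mp h2
      exact (sub_eq_zero.mp h3').symm
    have hfix : ∀ p : Finset (Fin m), p.card = 2 → R p g = g := by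
      intro p hp
      obtain ⟨P, hP, hsub⟩ := hpair p hp
      have h1 := R_R_of_subset hsub g
      rw [hfixS P hP] at h1
      exact h1
    exact cexp_of_factor _ (fun x y _ => const_of_fixed g hfix x y)
  have key := gap_of_sq H (R univ)
    (by
      intro g h
      rw [hHapp, hHapp, ip_sum_right, ip_sum_left]
      exact Finset.sum_congr rfl (fun p _ => PR_symm _ g h))
    (R_symm univ)
    (by
      intro g
      rw [hHapp]
      exact Finset.sum_eq_zero (fun p _ => PR_R_of_subset (Finset.subset_univ _) g))
    (by
      intro g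
      rw [hform]
      exact Finset.sum_nonneg (fun p _ => sub_nonneg.mpr (ip_cexp_le _ g)))
    hsq hker f
  rw [hform] at key
  exact key

end sites

end Vale.Agent.Lib.P328.RP
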