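import Mathlib
import Vale.Agent.Lib.P328.helper71.BlockKnabe

/-!
P328: the Knabe step when two rows `i0 ≠ i1` are treated as one site.

* `blockRows i0 i1 a` : rows of the site `a`: the site `i0` is the block `{i0, i1}`, the site
  `i1` is empty, every other site is the single row `a`.
* `hgap_block` : if the triple inequality holds for every triple of rows that avoids `i0, i1`
  and the four-row inequality holds for the block `{i0, i1}` with every two other rows, then
  `1 - R univ ≤ ∑_{p} (1 - R (rows p))`, the sum over all pairs `p` of rows, where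
  `rows p = insert i1 p` if `i0 ∈ p` and `rows p = p.erase i1` otherwise.
-/

namespace Vale.Agent.Lib.P328.RP

open Finset
open Vale.Agent.Lib.P335.Bip

namespace BlockSites

theorem powersetCard_two_triple {α : Type*} [DecidableEq α] (a b c : α) (hab : a ≠ b)
    (hac : a ≠ c) (hbc : b ≠ c) :
    ({a, b, c} : Finset α).powersetCard 2 = {{a, b}, {a, c}, {b, c}} := by
  ext p
  simp only [mem_powersetCard, mem_insert, mem_singleton]
  constructor
  · rintro ⟨hsub, hcard⟩
    obtain ⟨x, y, hxy, rfl⟩ := Finset.card_eq_two.mp hcard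
    have hx := hsub (mem_insert_self x {y})
    have hy := hsub (mem_insert_of_mem (mem_singleton_self y))
    simp only [mem_insert, mem_singleton] at hx hy
    rcases hx with rfl | rfl | rfl <;> rcases hy with rfl | rfl | rfl
    · exact absurd rfl hxy
    · left; rfl
    · right; left; rfl
    · left; exact Finset.pair_comm _ _
    · exact absurd rfl hxy
    · right; right; rfl
    · right; left; exact Finset.pair_comm _ _
    · right; right; exact Finset.pair_comm _ _
    · exact absurd rfl hxy
  · rintro (rfl | rfl | rfl)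
    · refine ⟨?_, Finset.card_pair hab⟩
      intro x hx
      simp only [mem_insert, mem_singleton] at hx ⊢
      tauto
    · refine ⟨?_, Finset.card_pair hac⟩
      intro x hx
      simp only [mem_insert, mem_singleton] at hx ⊢
      tauto
    · refine ⟨?_, Finset.card_pair hbc⟩
      intro x hx
      simp only [mem_insert, mem_singleton] at hx ⊢
      tauto

theorem sum_pairs_triple {α : Type*} [DecidableEq α] (a b c : α) (hab : a ≠ b)
    (hac : a ≠ c) (hbc : b ≠ c) (F : Finset α → ℝ) :
    ∑ p ∈ ({a, b, c} : Finset α).powersetCard 2, F p = F {a, b} + F {a, c} + F {b, c} := by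
  rw [powersetCard_two_triple a b c hab hac hbc]
  have h1 : ({a, b} : Finset α) ∉ ({{a, c}, {b, c}} : Finset (Finset α)) := by
    intro h
    simp only [mem_insert, mem_singleton] at h
    rcases h with h | h
    · have : b ∈ ({a, c} : Finset α) := by rw [← h]; simp
      simp only [mem_insert, mem_singleton] at this
      rcases this with h' | h'
      · exact hab h'.symm
      · exact hbc h'
    · have : a ∈ ({b, c} : Finset α) := by rw [← h]; simp
      simp only [mem_insert, mem_singleton] at this
      rcases this with h' | h'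
      · exact hab h'
      · exact hac h'
  have h2 : ({a, c} : Finset α) ∉ ({{b, c}} : Finset (Finset α)) := by
    intro h
    simp only [mem_singleton] at h
    have : a ∈ ({b, c} : Finset α) := by rw [← h]; simp
    simp only [mem_insert, mem_singleton] at this
    rcases this with h' | h'
    · exact hab h'
    · exact hac h'
  rw [Finset.sum_insert h1, Finset.sum_insert h2, Finset.sum_singleton]
  ring

end BlockSites

/-- Rows of the site `a` when the rows `i0, i1` form one site: the site `i0` is the block
`{i0, i1}`, the site `i1` is empty, and every other site is the single row `a`. -/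
def blockRows {m : ℕ} (i0 i1 : Fin m) (a : Fin m) : Finset (Fin m) :=
  if a = i0 then {i0, i1} else if a = i1 then ∅ else {a}

theorem mem_blockRows {m : ℕ} (i0 i1 : Fin m) (a x : Fin m) :
    x ∈ blockRows i0 i1 a ↔ (a = i0 ∧ (x = i0 ∨ x = i1)) ∨ (a ≠ i0 ∧ a ≠ i1 ∧ x = a) := by
  unfold blockRows
  by_cases h0 : a = i0
  · rw [if_pos h0]
    simp only [mem_insert, mem_singleton]
    tauto
  · rw [if_neg h0]
    by_cases h1 : a = i1
    · rw [if_pos h1]
      simp only [notMem_empty, false_iff]
      tauto
    · rw [if_neg h1]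
      simp only [mem_singleton]
      tauto

theorem blockRows_disjoint {m : ℕ} (i0 i1 : Fin m) (a b : Fin m) (hab : a ≠ b) :
    Disjoint (blockRows i0 i1 a) (blockRows i0 i1 b) := by
  rw [Finset.disjoint_left]
  intro x hxa hxb
  rw [mem_blockRows] at hxa hxb
  rcases hxa with ⟨ha, hx⟩ | ⟨ha0, ha1, hx⟩ <;> rcases hxb with ⟨hb, hx'⟩ | ⟨hb0, hb1, hx'⟩
  · exact hab (ha.trans hb.symm)
  · rcases hx with hx | hx
    · exact hb0 (hx' ▸ hx)
    · exact hb1 (hx' ▸ hx)
  · rcases hx' with hx' | hx'
    · exact ha0 (hx ▸ hx')
    · exact ha1 (hx ▸ hx')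
  · exact hab (hx.symm.trans hx')

theorem biUnion_blockRows {m : ℕ} (i0 i1 : Fin m) (p : Finset (Fin m)) :
    p.biUnion (blockRows i0 i1) = if i0 ∈ p then insert i1 p else p.erase i1 := by
  ext x
  rw [mem_biUnion]
  simp only [mem_blockRows]
  by_cases h0 : i0 ∈ p
  · rw [if_pos h0, mem_insert]
    constructor
    · rintro ⟨a, ha, ⟨ha0, hx⟩ | ⟨ha0, ha1, hx⟩⟩
      · rcases hx with hx | hx
        · right; rw [hx]; exact h0
        · left; exact hx
      · right; rw [hx]; exact ha
    · rintro (hx | hx)
      · exact ⟨i0, h0, Or.inl ⟨rfl, Or.inr hx⟩⟩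
      · by_cases hx0 : x = i0
        · exact ⟨i0, h0, Or.inl ⟨rfl, Or.inl hx0⟩⟩
        · by_cases hx1 : x = i1
          · exact ⟨i0, h0, Or.inl ⟨rfl, Or.inr hx1⟩⟩
          · exact ⟨x, hx, Or.inr ⟨hx0, hx1, rfl⟩⟩
  · rw [if_neg h0, mem_erase]
    constructor
    · rintro ⟨a, ha, ⟨ha0, hx⟩ | ⟨ha0, ha1, hx⟩⟩
      · exact absurd (ha0 ▸ ha) h0
      · exact ⟨hx ▸ ha1, hx ▸ ha⟩
    · rintro ⟨hx1, hx⟩
      have hx0 : x ≠ i0 := fun h => h0 (h ▸ hx)
      exact ⟨x, hx, Or.inr ⟨hx0, hx1, rfl⟩⟩

section block

variable {m n : ℕ} {r : Fin m → ℕ} {c : Fin n → ℕ}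

theorem ip_PR_nonneg (p : Finset (Fin m)) (f : CT m n r c → ℝ) : 0 ≤ ip f (PR p f) := by
  rw [ip_PR]
  exact sub_nonneg.mpr (ip_cexp_le _ f)

/-- **Knabe step with the two rows `i0 ≠ i1` as one site.**  Hypotheses: the triple inequality
for the triples of rows avoiding `i0, i1`, and the four-row inequality for the block
`{i0, i1}` together with two other rows `a ≠ b`.  Conclusion: the variance of `f` is at most
the sum over all pairs `p` of rows of the Dirichlet forms of the resampling of the rows
`insert i1 p` (if `i0 ∈ p`) or `p.erase i1` (otherwise). -/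
theorem hgap_block (i0 i1 : Fin m) (h01 : i0 ≠ i1)
    (hT1 : ∀ T : Finset (Fin m), T.card = 3 → i0 ∉ T → i1 ∉ T → ∀ f : CT m n r c → ℝ,
      ip f f - ip f (R T f) ≤ ∑ p ∈ T.powersetCard 2, ip f (PR p f))
    (hT2 : ∀ a b : Fin m, a ≠ b → a ≠ i0 → a ≠ i1 → b ≠ i0 → b ≠ i1 →
      ∀ f : CT m n r c → ℝ, ip f f - ip f (R {i0, i1, a, b} f)
        ≤ ip f (PR {i0, i1, a} f) + ip f (PR {i0, i1, b} f) + ip f (PR {a, b} f))
    (f : CT m n r c → ℝ) :
    ip f f - ip f (R univ f)
      ≤ ∑ p ∈ (univ : Finset (Fin m)).powersetCard 2,
          (ip f f - ip f (R (if i0 ∈ p then insert i1 p else p.erase i1) f)) := by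
  classical
  have key := hgap_sites (r := r) (c := c) (blockRows i0 i1) (blockRows_disjoint i0 i1) ?_ ?_ f
  · refine key.trans (le_of_eq ?_)
    refine Finset.sum_congr rfl (fun p _ => ?_)
    rw [biUnion_blockRows]
  · -- every pair of rows lies in the rows of a pair of sites
    intro p hp
    by_cases h0 : i0 ∈ p
    · refine ⟨p, hp, ?_⟩
      rw [biUnion_blockRows, if_pos h0]
      exact Finset.subset_insert _ _
    · by_cases h1 : i1 ∈ p
      · refine ⟨insert i0 (p.erase i1), ?_, ?_⟩
        · rw [Finset.card_insert_of_notMem (fun h => h0 (Finset.mem_of_mem_erase h)),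
            Finset.card_erase_of_mem h1, hp]
        · rw [biUnion_blockRows, if_pos (Finset.mem_insert_self _ _)]
          intro x hx
          by_cases hx1 : x = i1
          · rw [hx1]; exact Finset.mem_insert_self _ _
          · exact Finset.mem_insert_of_mem (Finset.mem_insert_of_mem
              (Finset.mem_erase.mpr ⟨hx1, hx⟩))
      · refine ⟨p, hp, ?_⟩
        rw [biUnion_blockRows, if_neg h0, Finset.erase_eq_of_notMem h1]
  · -- the triple inequality for the sites
    intro T hT g
    by_cases h1 : i1 ∈ T
    · -- the site `i1` is empty: one pair already has all the rows of the triple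
      have hp0 : T.erase i1 ∈ T.powersetCard 2 := by
        rw [Finset.mem_powersetCard]
        refine ⟨Finset.erase_subset _ _, ?_⟩
        rw [Finset.card_erase_of_mem h1, hT]
      have heq : (T.erase i1).biUnion (blockRows i0 i1) = T.biUnion (blockRows i0 i1) := by
        rw [biUnion_blockRows, biUnion_blockRows]
        by_cases h0 : i0 ∈ T
        · rw [if_pos h0, if_pos (Finset.mem_erase.mpr ⟨h01, h0⟩), Finset.insert_erase h1,
            Finset.insert_eq_of_mem h1]
        · rw [if_neg h0, if_neg (fun h => h0 (Finset.mem_of_mem_erase h)),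
            Finset.erase_idem]
      have hsingle : ip g (PR ((T.erase i1).biUnion (blockRows i0 i1)) g)
          ≤ ∑ p ∈ T.powersetCard 2, ip g (PR (p.biUnion (blockRows i0 i1)) g) :=
        Finset.single_le_sum (s := T.powersetCard 2)
          (f := fun p : Finset (Fin m) => ip g (PR (p.biUnion (blockRows i0 i1)) g))
          (fun p _ => ip_PR_nonneg (p.biUnion (blockRows i0 i1)) g) hp0
      rw [heq, ip_PR] at hsingle
      exact hsingle
    · by_cases h0 : i0 ∈ T
      · -- the block and two other rows
        have hc2 : (T.erase i0).card = 2 := by rw [Finset.card_erase_of_mem h0, hT]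
        obtain ⟨a, b, hab, hTab⟩ := Finset.card_eq_two.mp hc2
        have haT : a ∈ T.erase i0 := by rw [hTab]; exact Finset.mem_insert_self _ _
        have hbT : b ∈ T.erase i0 := by
          rw [hTab]; exact Finset.mem_insert_of_mem (Finset.mem_singleton_self _)
        have ha0 : a ≠ i0 := Finset.ne_of_mem_erase haT
        have hb0 : b ≠ i0 := Finset.ne_of_mem_erase hbT
        have ha1 : a ≠ i1 := fun h => h1 (h ▸ Finset.mem_of_mem_erase haT)
        have hb1 : b ≠ i1 := fun h => h1 (h ▸ Finset.mem_of_mem_erase hbT)
        have hTeq : T = {i0, a, b} := by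
          rw [← Finset.insert_erase h0, hTab]
        have e1 : ({i0, a} : Finset (Fin m)).biUnion (blockRows i0 i1) = {i0, i1, a} := by
          rw [biUnion_blockRows, if_pos (Finset.mem_insert_self _ _)]
          exact Finset.insert_comm _ _ _
        have e2 : ({i0, b} : Finset (Fin m)).biUnion (blockRows i0 i1) = {i0, i1, b} := by
          rw [biUnion_blockRows, if_pos (Finset.mem_insert_self _ _)]
          exact Finset.insert_comm _ _ _
        have e3 : ({a, b} : Finset (Fin m)).biUnion (blockRows i0 i1) = {a, b} := by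
          rw [biUnion_blockRows]
          have hn0 : i0 ∉ ({a, b} : Finset (Fin m)) := by
            simp only [mem_insert, mem_singleton, not_or]
            exact ⟨fun h => ha0 h.symm, fun h => hb0 h.symm⟩
          have hn1 : i1 ∉ ({a, b} : Finset (Fin m)) := by
            simp only [mem_insert, mem_singleton, not_or]
            exact ⟨fun h => ha1 h.symm, fun h => hb1 h.symm⟩
          rw [if_neg hn0, Finset.erase_eq_of_notMem hn1]
        have e4 : ({i0, a, b} : Finset (Fin m)).biUnion (blockRows i0 i1) = {i0, i1, a, b} := by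
          rw [biUnion_blockRows, if_pos (Finset.mem_insert_self _ _)]
          exact Finset.insert_comm _ _ _
        rw [hTeq, BlockSites.sum_pairs_triple i0 a b (fun h => ha0 h.symm)
          (fun h => hb0 h.symm) hab, e1, e2, e3, e4]
        exact hT2 a b hab ha0 ha1 hb0 hb1 g
      · -- three rows outside the block
        have hTb : T.biUnion (blockRows i0 i1) = T := by
          rw [biUnion_blockRows, if_neg h0, Finset.erase_eq_of_notMem h1]
        rw [hTb]
        refine (hT1 T hT h0 h1 g).trans (le_of_eq ?_)
        refine Finset.sum_congr rfl (fun p hp => ?_)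
        have hpT := (Finset.mem_powersetCard.mp hp).1
        rw [biUnion_blockRows, if_neg (fun h => h0 (hpT h)),
          Finset.erase_eq_of_notMem (fun h => h1 (hpT h))]

end block

end Vale.Agent.Lib.P328.RP
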